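import Mathlib.LinearAlgebra.Matrix.Determinant.Basic
import Mathlib.Data.Real.Basic
import Mathlib.Tactic

/-!
# P106 / U / H11 : perturbation of determinants
-/

set_option autoImplicit false

namespace Vale.Agent.P106.U.H11

open Finset

theorem prod_abs_le {ι : Type*} (s : Finset ι) (b : ι → ℝ) (hb : ∀ i ∈ s, |b i| ≤ 3) :
    |∏ i ∈ s, b i| ≤ 3 ^ s.card := by
  rw [abs_prod]
  calc ∏ i ∈ s, |b i| ≤ ∏ _i ∈ s, (3 : ℝ) := prod_le_prod (fun i _ => abs_nonneg _) hb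
    _ = 3 ^ s.card := by rw [prod_const]

theorem prod_sub_le {ι : Type*} (s : Finset ι) (a b : ι → ℝ) {e : ℝ} (he : 0 ≤ e)
    (ha : ∀ i ∈ s, |a i| ≤ 3) (hb : ∀ i ∈ s, |b i| ≤ 3) (h : ∀ i ∈ s, |a i - b i| ≤ e) :
    |∏ i ∈ s, a i - ∏ i ∈ s, b i| ≤ s.card * 3 ^ s.card * e := by
  classical
  induction s using Finset.induction_on with
  | empty => simp
  | insert i s hi ih =>
    have ha' := fun j hj => ha j (mem_insert_of_mem hj)
    have hb' := fun j hj => hb j (mem_insert_of_mem hj)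
    have h' := fun j hj => h j (mem_insert_of_mem hj)
    have ih' := ih ha' hb' h'
    rw [prod_insert hi, prod_insert hi, card_insert_of_notMem hi]
    have e1 : a i * ∏ j ∈ s, a j - b i * ∏ j ∈ s, b j =
        a i * (∏ j ∈ s, a j - ∏ j ∈ s, b j) + (a i - b i) * ∏ j ∈ s, b j := by ring
    rw [e1]
    refine (abs_add_le _ _).trans ?_
    rw [abs_mul, abs_mul]
    have h1 : |a i| * |∏ j ∈ s, a j - ∏ j ∈ s, b j| ≤ 3 * (s.card * 3 ^ s.card * e) :=
      mul_le_mul (ha i (mem_insert_self i s)) ih' (abs_nonneg _) (by norm_num)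
    have h2 : |a i - b i| * |∏ j ∈ s, b j| ≤ e * 3 ^ s.card :=
      mul_le_mul (h i (mem_insert_self i s)) (prod_abs_le s b hb') (abs_nonneg _) he
    have h3 : e * 3 ^ s.card ≤ e * 3 ^ (s.card + 1) :=
      mul_le_mul_of_nonneg_left (pow_le_pow_right₀ (by norm_num) (Nat.le_succ _)) he
    push_cast
    have h4 : (((s.card : ℝ) + 1) * 3 ^ (s.card + 1)) * e =
        3 * (s.card * 3 ^ s.card * e) + e * 3 ^ (s.card + 1) := by
      rw [pow_succ]; ring
    rw [h4]
    linarith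

/-- the determinant is Lipschitz on bounded matrices -/
theorem det_pert (d : ℕ) : ∃ C : ℝ, 0 ≤ C ∧ ∀ M M' : Matrix (Fin d) (Fin d) ℝ, ∀ e, 0 ≤ e → e ≤ 1 →
    (∀ i j, |M i j| ≤ 2) → (∀ i j, |M i j - M' i j| ≤ e) → |M.det - M'.det| ≤ C * e := by
  refine ⟨(Fintype.card (Equiv.Perm (Fin d)) : ℝ) * (d * 3 ^ d), by positivity, ?_⟩
  intro M M' e he he1 hM h
  have hM3 : ∀ i j, |M i j| ≤ 3 := fun i j => (hM i j).trans (by norm_num)
  have hM'3 : ∀ i j, |M' i j| ≤ 3 := by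
    intro i j
    have h1 : |M' i j| ≤ |M i j| + |M i j - M' i j| := by
      have := abs_sub_abs_le_abs_sub (M' i j) (M i j)
      rw [abs_sub_comm] at this
      linarith
    linarith [hM i j, h i j]
  rw [Matrix.det_apply', Matrix.det_apply', ← sum_sub_distrib]
  refine (abs_sum_le_sum_abs _ _).trans ?_
  have h1 : ∀ σ ∈ (univ : Finset (Equiv.Perm (Fin d))),
      |((Equiv.Perm.sign σ : ℤ) : ℝ) * ∏ i, M (σ i) i - ((Equiv.Perm.sign σ : ℤ) : ℝ) * ∏ i, M' (σ i) i| ≤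
        d * 3 ^ d * e := by
    intro σ _
    rw [← mul_sub, abs_mul]
    have h2 : |((Equiv.Perm.sign σ : ℤ) : ℝ)| = 1 := by
      rcases Int.units_eq_one_or (Equiv.Perm.sign σ) with h | h <;> simp [h]
    rw [h2, one_mul]
    have h3 := prod_sub_le (univ : Finset (Fin d)) (fun i => M (σ i) i) (fun i => M' (σ i) i) he
      (fun i _ => hM3 _ _) (fun i _ => hM'3 _ _) (fun i _ => h _ _)
    rwa [card_univ, Fintype.card_fin] at h3
  refine (sum_le_sum h1).trans (le_of_eq ?_)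
  rw [sum_const, card_univ, nsmul_eq_mul]
  ring

end Vale.Agent.P106.U.H11
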