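import Vale.Agent.P106.U.H611.Props2

/-!
# P106 / U / H11 : [PAT] many isotropic steps in mean ⇒ a likely pattern with many isotropic steps (helper11)
-/

set_option autoImplicit false

namespace Vale.Agent.P106.U.H11

open Finset Vale.Agent.P127 Vale.Agent.P127.Stk Vale.Agent.P127.U Vale.Agent.P127.U.CellD Vale.Agent.P127.U.Mic
  Vale.Agent.P106.U.EndA

variable {Ω : Type} [Fintype Ω]

open Classical in
theorem prE_eq_sum (P : Law Ω) (E : Ω → Prop) : prE P E = ∑ ω, P.w ω * (if E ω then 1 else 0) := by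
  unfold prE
  rw [Finset.sum_filter]
  exact Finset.sum_congr rfl fun ω _ => by split_ifs <;> simp

theorem prE_nonneg' (P : Law Ω) (E : Ω → Prop) : 0 ≤ prE P E := by
  unfold prE
  exact sum_nonneg fun ω _ => P.nn ω

/-- expectation of the number of the events -/
theorem ex_card (P : Law Ω) {d : ℕ} (w : ℕ → Ω → Sta d) (J : ℕ) :
    ∑ ω, P.w ω * ((pat w J ω).card : ℝ) = ∑ j ∈ range J, prE P (iso w j) := by
  classical
  have h : ∀ j, prE P (iso w j) = ∑ ω, P.w ω * (if iso w j ω then 1 else 0) := fun j => prE_eq_sum P _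
  rw [sum_congr rfl fun j _ => h j, sum_comm]
  refine sum_congr rfl fun ω _ => ?_
  rw [← mul_sum]
  congr 1
  unfold pat
  rw [card_filter]
  push_cast
  rfl

theorem ppat : PPat := by
  intro Ω _ d P w J c1 hJ hc1 hsum
  classical
  have hJR : (0:ℝ) < J := by exact_mod_cast hJ
  set E1 : Ω → Prop := fun ω => c1 / 2 * J ≤ ((pat w J ω).card : ℝ) with hE1
  set E2 : Ω → Prop := fun ω => c1 / 4 / 2 ^ J ≤ P.pr (pat w J) (pat w J ω) with hE2
  -- Markov
  have hcard : ∀ ω, ((pat w J ω).card : ℝ) ≤ J := fun ω => by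
    have : (pat w J ω).card ≤ (range J).card := card_le_card (filter_subset _ _)
    rw [card_range] at this
    exact_mod_cast this
  have h1 : c1 * J ≤ J * prE P E1 + c1 / 2 * J := by
    refine hsum.trans ?_
    rw [← ex_card P w J, prE_eq_sum, mul_sum]
    have e : c1 / 2 * (J:ℝ) = ∑ ω, P.w ω * (c1 / 2 * J) := by
      rw [← sum_mul, P.sum_one, one_mul]
    rw [e, ← sum_add_distrib]
    refine sum_le_sum fun ω _ => ?_
    have hw := P.nn ω
    by_cases hE : E1 ω
    · rw [if_pos hE]
      have h2 := mul_le_mul_of_nonneg_left (hcard ω) hw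
      have h3 : 0 ≤ P.w ω * (c1 / 2 * J) := by positivity
      linarith
    · rw [if_neg hE]
      have h2 : ((pat w J ω).card : ℝ) ≤ c1 / 2 * J := (not_le.1 hE).le
      have h3 := mul_le_mul_of_nonneg_left h2 hw
      linarith
  have h2 : c1 / 2 ≤ prE P E1 := by
    have : c1 / 2 * (J:ℝ) ≤ prE P E1 * J := by linarith
    exact le_of_mul_le_mul_right this hJR
  -- rare patterns
  obtain ⟨E3, hE3⟩ : ∃ E3 : Ω → Prop, ∀ ω, E3 ω ↔ ¬ E2 ω := ⟨fun ω => ¬ E2 ω, fun _ => Iff.rfl⟩
  have h3 : prE P E3 ≤ c1 / 4 := by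
    rw [prE_eq_sum]
    have h4 : ∀ ω ∈ (univ : Finset Ω), pat w J ω ∈ (range J).powerset := fun ω _ => by
      rw [mem_powerset]
      exact filter_subset _ _
    rw [← sum_fiberwise_of_maps_to h4]
    have h5 : ∀ S ∈ (range J).powerset, ∑ ω ∈ (univ : Finset Ω).filter (fun ω => pat w J ω = S),
        P.w ω * (if E3 ω then 1 else 0) ≤ c1 / 4 / 2 ^ J := fun S _ => by
      by_cases hS : c1 / 4 / 2 ^ J ≤ P.pr (pat w J) S
      · refine le_trans (le_of_eq (sum_eq_zero fun ω hω => ?_)) (by positivity)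
        rw [mem_filter] at hω
        have h6 : ¬ E3 ω := by
          rw [hE3, not_not]
          show c1 / 4 / 2 ^ J ≤ P.pr (pat w J) (pat w J ω)
          rw [hω.2]
          exact hS
        rw [if_neg h6, mul_zero]
      · refine le_trans ?_ (not_le.1 hS).le
        have h7 : P.pr (pat w J) S = ∑ ω ∈ (univ : Finset Ω).filter (fun ω => pat w J ω = S), P.w ω := by
          unfold Law.pr
          refine sum_congr ?_ fun _ _ => rfl
          ext ω
          simp
        rw [h7]
        refine sum_le_sum fun ω _ => ?_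
        have := P.nn ω
        split_ifs <;> linarith
    refine (sum_le_sum h5).trans (le_of_eq ?_)
    rw [sum_const, card_powerset, card_range, nsmul_eq_mul]
    push_cast
    field_simp
  -- conclusion
  have h6 : prE P E1 ≤ prE P (fun ω => E1 ω ∧ E2 ω) + prE P E3 := by
    rw [prE_eq_sum, prE_eq_sum, prE_eq_sum, ← sum_add_distrib]
    refine sum_le_sum fun ω _ => ?_
    have hw := P.nn ω
    rw [← mul_add]
    refine mul_le_mul_of_nonneg_left ?_ hw
    by_cases h1 : E1 ω
    · by_cases h2 : E2 ω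
      · have h3 : ¬ E3 ω := by rw [hE3, not_not]; exact h2
        rw [if_pos h1, if_pos ⟨h1, h2⟩, if_neg h3, add_zero]
      · have h3 : E3 ω := (hE3 ω).2 h2
        rw [if_pos h1, if_neg (fun h => h2 h.2), if_pos h3, zero_add]
    · rw [if_neg h1, if_neg (fun h => h1 h.1)]
      split_ifs <;> norm_num
  show c1 / 4 ≤ prE P (fun ω => E1 ω ∧ E2 ω)
  linarith

end Vale.Agent.P106.U.H11
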